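import Vale.Agent.P281.H64.Spec

/-!
# P281, theorem T-D (helper383): block F2 (lattice, polarization, area)
-/

open Set Filter Metric MeasureTheory Matrix
open scoped Topology ContDiff ComplexConjugate ComplexOrder

noncomputable section

namespace Vale.Agent.P281.H383

open Vale.Agent.P281.H64

section
variable {E Γ : Type} [TopologicalSpace E] [Group Γ] [MulAction Γ E] {S : Sheets E Γ}

theorem add_smul_add {h₁ h₂ : E → ℂ} {c₁ c₂ : Γ → ℂ} (s : ℂ) (a1 : Add S h₁ c₁)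
    (a2 : Add S h₂ c₂) :
    Add S (fun e => s * h₁ e + h₂ e) (fun γ => s * c₁ γ + c₂ γ) where
  hol i := ((a1.hol i).const_mul s).add (a2.hol i)
  add γ e := by
    show s * h₁ (γ • e) + h₂ (γ • e) = _
    rw [a1.add, a2.add]; ring

theorem add_zero' : Add S (fun _ => 0) (fun _ => 0) where
  hol i := differentiableOn_const _
  add γ e := by simp

theorem add_sum' {g : ℕ} {F : E → Fin g → ℂ} {c : Γ → Fin g → ℂ}
    (hF : ∀ j, Add S (fun e => F e j) (fun γ => c γ j)) (s : Fin g → ℂ) (t : Finset (Fin g)) :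
    Add S (fun e => ∑ j ∈ t, s j * F e j) (fun γ => ∑ j ∈ t, s j * c γ j) := by
  classical
  induction t using Finset.induction_on with
  | empty => simpa using (add_zero' (S := S))
  | insert a t ha ih =>
    simp only [Finset.sum_insert ha]
    exact add_smul_add (s a) (hF a) ih

theorem add_sum {g : ℕ} {F : E → Fin g → ℂ} {c : Γ → Fin g → ℂ}
    (hF : ∀ j, Add S (fun e => F e j) (fun γ => c γ j)) (s : Fin g → ℂ) :
    Add S (fun e => ∑ j, s j * F e j) (fun γ => ∑ j, s j * c γ j) :=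
  add_sum' hF s Finset.univ

theorem herm_zero (H : E1Concl S) {h' : E → ℂ} {c' : Γ → ℂ} (a' : Add S h' c') :
    S.herm (fun _ => 0) h' = 0 := by
  have h1 := H.lin (1 : ℂ) (add_zero' (S := S)) (add_zero' (S := S)) a'
  simp only [mul_zero, add_zero, one_mul] at h1
  have h2 : S.herm (fun _ => 0) h' + 0 = S.herm (fun _ => 0) h' + S.herm (fun _ => 0) h' := by
    rw [add_zero]; exact h1
  exact (add_left_cancel h2).symm

theorem herm_sum' (H : E1Concl S) {g : ℕ} {F : E → Fin g → ℂ} {c : Γ → Fin g → ℂ}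
    (hF : ∀ j, Add S (fun e => F e j) (fun γ => c γ j)) (s : Fin g → ℂ) {h' : E → ℂ}
    {c' : Γ → ℂ} (a' : Add S h' c') (t : Finset (Fin g)) :
    S.herm (fun e => ∑ j ∈ t, s j * F e j) h' = ∑ j ∈ t, s j * S.herm (fun e => F e j) h' := by
  classical
  induction t using Finset.induction_on with
  | empty => simpa using herm_zero H a'
  | insert a t ha ih =>
    simp only [Finset.sum_insert ha]
    rw [H.lin (s a) (hF a) (add_sum' hF s t) a', ih]

theorem herm_sum (H : E1Concl S) {g : ℕ} {F : E → Fin g → ℂ} {c : Γ → Fin g → ℂ}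
    (hF : ∀ j, Add S (fun e => F e j) (fun γ => c γ j)) (s : Fin g → ℂ) {h' : E → ℂ}
    {c' : Γ → ℂ} (a' : Add S h' c') :
    S.herm (fun e => ∑ j, s j * F e j) h' = ∑ j, s j * S.herm (fun e => F e j) h' :=
  herm_sum' H hF s a' Finset.univ

/-- The Gram matrix. -/
def gram (S : Sheets E Γ) {g : ℕ} (F : E → Fin g → ℂ) : Matrix (Fin g) (Fin g) ℂ :=
  Matrix.of fun j l => S.herm (fun e => F e j) (fun e => F e l)

theorem gram_herm (H : E1Concl S) {g : ℕ} {F : E → Fin g → ℂ} {c : Γ → Fin g → ℂ}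
    (hF : ∀ j, Add S (fun e => F e j) (fun γ => c γ j)) : (gram S F).IsHermitian := by
  ext j l
  show star (S.herm (fun e => F e l) (fun e => F e j)) = S.herm (fun e => F e j) (fun e => F e l)
  rw [H.symm (hF l) (hF j)]
  rfl

theorem herm_sum_sum (H : E1Concl S) {g : ℕ} {F : E → Fin g → ℂ} {c : Γ → Fin g → ℂ}
    (hF : ∀ j, Add S (fun e => F e j) (fun γ => c γ j)) (s s' : Fin g → ℂ) :
    S.herm (fun e => ∑ j, s j * F e j) (fun e => ∑ j, s' j * F e j) =
      s ⬝ᵥ (gram S F) *ᵥ (star s') := by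
  rw [herm_sum H hF s (add_sum hF s')]
  simp only [dotProduct, mulVec, gram, Matrix.of_apply, Pi.star_apply]
  refine Finset.sum_congr rfl fun j _ => ?_
  congr 1
  rw [H.symm (add_sum hF s') (hF j), herm_sum H hF s' (hF j), map_sum]
  refine Finset.sum_congr rfl fun l _ => ?_
  rw [map_mul, ← H.symm (hF l) (hF j), mul_comm]
  rfl

end

/-! ### Linear algebra -/

section
variable {n g : ℕ} (C : Fin n → Fin g → ℂ)

/-- The real periods of `Σ s_j F_j`. -/
def rho (s : Fin g → ℂ) : Fin n → ℝ := fun k => (∑ j, s j * C k j).re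

/-- `Σ x_k c(γ_k)` -/
def ww (x : Fin n → ℝ) : Fin g → ℂ := fun j => ∑ k, (x k : ℂ) * C k j

theorem dot_ww (t : Fin g → ℂ) (x : Fin n → ℝ) : (t ⬝ᵥ ww C x).re = rho C t ⬝ᵥ x := by
  simp only [dotProduct, ww, rho, Finset.mul_sum]
  rw [Finset.sum_comm, Complex.re_sum]
  refine Finset.sum_congr rfl fun k _ => ?_
  rw [mul_comm, ← Complex.re_ofReal_mul, Finset.mul_sum]
  congr 1
  exact Finset.sum_congr rfl fun j _ => by ring

theorem rho_zero : rho C 0 = 0 := by
  ext k; simp [rho]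

theorem eq_of_re {u v : Fin g → ℂ} (h : ∀ t : Fin g → ℂ, (t ⬝ᵥ u).re = (t ⬝ᵥ v).re) : u = v := by
  ext j
  have h1 := h (Pi.single j 1)
  have h2 := h (Pi.single j Complex.I)
  simp only [single_dotProduct, one_mul] at h1 h2
  rw [Complex.I_mul_re, Complex.I_mul_re] at h2
  exact Complex.ext h1 (neg_injective h2)

theorem smul_dot_im (t v : Fin g → ℂ) : (t ⬝ᵥ v).im = (t ⬝ᵥ (-Complex.I) • v).re := by
  rw [dotProduct_smul, smul_eq_mul, neg_mul, Complex.neg_re, Complex.I_mul_re, neg_neg]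

end

/-- The data of F2. -/
structure Dat {n g : ℕ} (C : Fin n → Fin g → ℂ) (H : Matrix (Fin g) (Fin g) ℂ)
    (B : Matrix (Fin n) (Fin n) ℝ) : Prop where
  herm : H.IsHermitian
  def' : ∀ s : Fin g → ℂ, s ⬝ᵥ H *ᵥ star s = 0 → s = 0
  nonneg : ∀ s : Fin g → ℂ, 0 ≤ (s ⬝ᵥ H *ᵥ star s).re
  im : ∀ s s' : Fin g → ℂ, (s ⬝ᵥ H *ᵥ star s').im = rho C s ⬝ᵥ B *ᵥ rho C s'
  surj : ∀ a, ∃ s, rho C s = a

namespace Dat
variable {n g : ℕ} {C : Fin n → Fin g → ℂ} {H : Matrix (Fin g) (Fin g) ℂ}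
    {B : Matrix (Fin n) (Fin n) ℝ} (D : Dat C H B)
include D

theorem unitB : IsUnit B.det := by
  rw [← Matrix.isUnit_iff_isUnit_det, ← Matrix.mulVec_injective_iff_isUnit]
  intro a b hab
  have h0 : B *ᵥ (a - b) = 0 := by rw [mulVec_sub]; exact sub_eq_zero.2 hab
  obtain ⟨s, hs⟩ := D.surj (a - b)
  have h1 : ∀ t, (t ⬝ᵥ H *ᵥ star s).im = 0 := fun t => by rw [D.im, hs, h0, dotProduct_zero]
  have h2 := h1 (Complex.I • s)
  rw [smul_dotProduct, smul_eq_mul, Complex.I_mul_im] at h2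
  have h3 : s ⬝ᵥ H *ᵥ star s = 0 := Complex.ext h2 (h1 s)
  have h4 := D.def' s h3
  rw [h4, rho_zero] at hs
  exact (sub_eq_zero.1 hs.symm)

theorem im_self (s : Fin g → ℂ) : (s ⬝ᵥ H *ᵥ star s).im = 0 := by
  have h := D.herm.im_star_dotProduct_mulVec_self (star s)
  rwa [star_star] at h

theorem posDef : H.PosDef := by
  refine PosDef.of_dotProduct_mulVec_pos D.herm fun x hx => ?_
  have h1 := D.nonneg (star x)
  have h2 := D.im_self (star x)
  have h3 := D.def' (star x)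
  rw [star_star] at h1 h2 h3
  have h4 : star x ⬝ᵥ H *ᵥ x ≠ 0 := fun h => hx (by
    have := h3 h
    rw [← star_star x, this, star_zero])
  rw [Complex.lt_def]
  refine ⟨lt_of_le_of_ne h1 fun h => h4 (Complex.ext h.symm h2), h2.symm⟩

theorem unitH : IsUnit H.det := by
  rw [← Matrix.isUnit_iff_isUnit_det]
  exact D.posDef.isUnit

theorem ww_eq {x : Fin n → ℝ} {s : Fin g → ℂ} (hs : rho C s = B⁻¹ *ᵥ x) :
    ww C x = (-Complex.I) • (H *ᵥ star s) := by
  refine eq_of_re fun t => ?_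
  rw [dot_ww, ← smul_dot_im, D.im, hs, mulVec_mulVec, Matrix.mul_nonsing_inv _ D.unitB, one_mulVec]

theorem key (x x' : Fin n → ℝ) :
    ∑ k, ∑ l, B⁻¹ k l * x' k * x l = (star (ww C x) ⬝ᵥ H⁻¹ *ᵥ (ww C x')).im := by
  obtain ⟨s, hs⟩ := D.surj (B⁻¹ *ᵥ x)
  have h1 : star (ww C x) = Complex.I • (s ᵥ* H) := by
    rw [D.ww_eq hs, star_smul, star_mulVec, star_star, D.herm.eq]
    simp
  have h2 : star (ww C x) ⬝ᵥ H⁻¹ *ᵥ (ww C x') = Complex.I * (s ⬝ᵥ ww C x') := by
    rw [h1, smul_dotProduct, smul_eq_mul, ← dotProduct_mulVec, mulVec_mulVec,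
      Matrix.mul_nonsing_inv _ D.unitH, one_mulVec]
  rw [h2, Complex.I_mul_im, dot_ww, hs, dotProduct_comm]
  simp only [dotProduct, mulVec, Finset.mul_sum]
  exact Finset.sum_congr rfl fun k _ => Finset.sum_congr rfl fun l _ => by ring

theorem ww_inj {x : Fin n → ℝ} (h : ww C x = 0) : x = 0 := by
  obtain ⟨t, ht⟩ := D.surj x
  have h1 := dot_ww C t x
  rw [h, dotProduct_zero, ht, Complex.zero_re] at h1
  exact dotProduct_self_eq_zero.1 h1.symm

end Dat

section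
variable {Γ : Type} [Group Γ] {n g : ℕ} (M : Mark Γ n) (c : Γ → Fin g → ℂ)

theorem perMap_eq (x : Fin n → ℝ) :
    perMap M c x = WithLp.toLp 2 (ww (fun k => c (M.g k)) x) := rfl

/-- `perMap` as a linear map. -/
def perLin : (Fin n → ℝ) →ₗ[ℝ] EuclideanSpace ℂ (Fin g) where
  toFun := perMap M c
  map_add' x y := by
    ext j
    simp only [perMap, PiLp.add_apply, Pi.add_apply, Complex.ofReal_add, add_mul,
      Finset.sum_add_distrib]
  map_smul' r x := by
    ext j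
    simp only [perMap, PiLp.smul_apply, Pi.smul_apply, smul_eq_mul, Complex.ofReal_mul,
      RingHom.id_apply, Complex.real_smul, Finset.mul_sum, mul_assoc]

theorem exists_pi {H : Matrix (Fin g) (Fin g) ℂ} {B : Matrix (Fin n) (Fin n) ℝ}
    (D : Dat (fun k => c (M.g k)) H B) (hn : n = 2 * g) :
    ∃ π : (Fin n → ℝ) ≃L[ℝ] EuclideanSpace ℂ (Fin g), ∀ x, π x = perMap M c x := by
  have hinj : Function.Injective (perLin M c) := by
    rw [← LinearMap.ker_eq_bot, LinearMap.ker_eq_bot']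
    intro x hx
    refine D.ww_inj ?_
    have h1 : perMap M c x = 0 := hx
    rw [perMap_eq] at h1
    exact (WithLp.toLp_injective 2) h1
  have hd : Module.finrank ℝ (Fin n → ℝ) = Module.finrank ℝ (EuclideanSpace ℂ (Fin g)) := by
    rw [Module.finrank_fin_fun, (WithLp.linearEquiv 2 ℝ (Fin g → ℂ)).finrank_eq,
      Module.finrank_pi_fintype]
    simp [hn, mul_comm]
  exact ⟨(LinearMap.linearEquivOfInjective (perLin M c) hinj hd).toContinuousLinearEquiv,
    fun x => rfl⟩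

end


/-! ### The matrix of `G` -/

section
variable {g : ℕ}

/-- The matrix of `G`. -/
def mat (G : EuclideanSpace ℂ (Fin g) →ₗ[ℂ] EuclideanSpace ℂ (Fin g)) :
    Matrix (Fin g) (Fin g) ℂ :=
  Matrix.of fun a j => G (WithLp.toLp 2 (Pi.single j 1)) a

theorem mat_apply (G : EuclideanSpace ℂ (Fin g) →ₗ[ℂ] EuclideanSpace ℂ (Fin g))
    (w : Fin g → ℂ) : G (WithLp.toLp 2 w) = WithLp.toLp 2 (mat G *ᵥ w) := by
  have h1 : (WithLp.toLp 2 w : EuclideanSpace ℂ (Fin g)) =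
      ∑ j, w j • (WithLp.toLp 2 (Pi.single j 1) : EuclideanSpace ℂ (Fin g)) := by
    ext a
    simp [Pi.single_apply]
  rw [h1, map_sum]
  ext a
  simp [mat, mulVec, dotProduct, mul_comm]

theorem inner_mat (G : EuclideanSpace ℂ (Fin g) →ₗ[ℂ] EuclideanSpace ℂ (Fin g))
    (w w' : Fin g → ℂ) : inner ℂ (G (WithLp.toLp 2 w)) (G (WithLp.toLp 2 w')) =
      star w ⬝ᵥ ((mat G)ᴴ * mat G) *ᵥ w' := by
  rw [mat_apply, mat_apply, EuclideanSpace.inner_toLp_toLp, dotProduct_comm, star_mulVec,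
    ← dotProduct_mulVec, mulVec_mulVec]

theorem eq_of_im' {A A' : Matrix (Fin g) (Fin g) ℂ}
    (h : ∀ w w' : Fin g → ℂ, (star w ⬝ᵥ A *ᵥ w').im = (star w ⬝ᵥ A' *ᵥ w').im) : A = A' := by
  have h1 : ∀ w w' : Fin g → ℂ, star w ⬝ᵥ A *ᵥ w' = star w ⬝ᵥ A' *ᵥ w' := by
    intro w w'
    refine Complex.ext ?_ (h w w')
    have h2 := h w (Complex.I • w')
    rw [mulVec_smul, mulVec_smul, dotProduct_smul, dotProduct_smul, smul_eq_mul, smul_eq_mul,
      Complex.I_mul_im, Complex.I_mul_im] at h2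
    exact h2
  ext a b
  have h2 := h1 (Pi.single a 1) (Pi.single b 1)
  simpa [Pi.star_single] using h2

/-- A matrix with `Gᴴ G` given. -/
theorem exists_G {H : Matrix (Fin g) (Fin g) ℂ} (hH : H.PosDef) :
    ∃ G : EuclideanSpace ℂ (Fin g) ≃L[ℂ] EuclideanSpace ℂ (Fin g),
      ∀ w w' : Fin g → ℂ, inner ℂ (G (WithLp.toLp 2 w)) (G (WithLp.toLp 2 w')) =
        star w ⬝ᵥ H *ᵥ w' := by
  have h0 : ∃ G0 : Matrix (Fin g) (Fin g) ℂ, H = G0ᴴ * G0 := by
    open scoped MatrixOrder in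
    exact CStarAlgebra.nonneg_iff_eq_star_mul_self.mp hH.posSemidef.nonneg
  obtain ⟨G0, hG0⟩ := h0
  have hu : IsUnit G0 := by
    rw [Matrix.isUnit_iff_isUnit_det]
    have h1 : IsUnit H.det := by
      rw [← Matrix.isUnit_iff_isUnit_det]; exact hH.isUnit
    rw [hG0, det_mul] at h1
    exact isUnit_of_mul_isUnit_right h1
  have hd : IsUnit G0.det := by rwa [← Matrix.isUnit_iff_isUnit_det]
  let L : (Fin g → ℂ) ≃ₗ[ℂ] (Fin g → ℂ) :=
    Matrix.toLin'OfInv (Matrix.nonsing_inv_mul _ hd) (Matrix.mul_nonsing_inv _ hd)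
  let G1 : EuclideanSpace ℂ (Fin g) ≃ₗ[ℂ] EuclideanSpace ℂ (Fin g) :=
    ((WithLp.linearEquiv 2 ℂ (Fin g → ℂ)).trans L).trans (WithLp.linearEquiv 2 ℂ (Fin g → ℂ)).symm
  have hG1 : ∀ w, G1 (WithLp.toLp 2 w) = WithLp.toLp 2 (G0 *ᵥ w) := fun w => rfl
  refine ⟨G1.toContinuousLinearEquiv, fun w w' => ?_⟩
  show inner ℂ (G1 _) (G1 _) = _
  rw [hG1, hG1, EuclideanSpace.inner_toLp_toLp, dotProduct_comm, star_mulVec,
    ← dotProduct_mulVec, mulVec_mulVec, ← hG0]

end


/-! ### The data from the surface -/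

section
variable {E Γ : Type} [TopologicalSpace E] [Group Γ] [MulAction Γ E] {S : Sheets E Γ}

theorem re_zero_of_mark {n : ℕ} (M : Mark Γ n) {h : E → ℂ} {c : Γ → ℂ} (a : Add S h c)
    [Nonempty E] (h0 : ∀ k, (c (M.g k)).re = 0) (γ : Γ) : (c γ).re = 0 := by
  have hc : ∀ x y, c (x * y) = c x + c y := fun x y => by
    obtain ⟨e⟩ := ‹Nonempty E›
    have h1 := a.add (x * y) e
    rw [mul_smul, a.add, a.add] at h1
    have h2 : h e + (c y + c x) = h e + c (x * y) := by rw [← add_assoc]; exact h1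
    rw [add_comm (c x)]
    exact (add_left_cancel h2).symm
  have h1 := M.complete (fun γ => (c γ).re) (fun x y => by rw [hc, Complex.add_re]) γ
  rw [h1]
  exact Finset.sum_eq_zero fun k _ => by rw [h0, zero_mul]

theorem dat_of [T2Space E] [SimplyConnectedSpace E] [ContinuousConstSMul Γ E] (c2 : C2Stmt)
    (H : E1Concl S) {n g : ℕ} (M : Mark Γ n) {B : Matrix (Fin n) (Fin n) ℝ}
    {F : E → Fin g → ℂ} {c : Γ → Fin g → ℂ}
    (hB : ∀ h c h' c', Add S h c → Add S h' c' →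
      (S.herm h h').im = ∑ k, ∑ l, B k l * (c (M.g k)).re * (c' (M.g l)).re)
    (hF : IsBas S F c) : Dat (fun k => c (M.g k)) (gram S F) B := by
  obtain ⟨hex, huniq⟩ := c2 E Γ S
  refine ⟨gram_herm H hF.add, fun s hs => ?_, fun s => ?_, fun s s' => ?_, fun a => ?_⟩
  · rw [← herm_sum_sum H hF.add] at hs
    exact hF.indep s (H.pos (add_sum hF.add s) hs)
  · rw [← herm_sum_sum H hF.add]
    exact H.nonneg (add_sum hF.add s)
  · rw [← herm_sum_sum H hF.add, hB _ _ _ _ (add_sum hF.add s) (add_sum hF.add s')]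
    simp only [dotProduct, mulVec, rho, Finset.mul_sum]
    exact Finset.sum_congr rfl fun k _ => Finset.sum_congr rfl fun l _ => by ring
  · obtain ⟨h, b, hb, hb'⟩ := hex (fun γ => ∑ k, a k * M.φ k γ) (fun x y => by
      simp only [M.hom, Int.cast_add, mul_add, Finset.sum_add_distrib])
    obtain ⟨s, hs⟩ := hF.span h b hb
    refine ⟨s, ?_⟩
    ext k
    show (∑ j, s j * c (M.g k) j).re = a k
    rw [← hs, hb']
    simp [M.dual]

/-- `F ∘ q` is differentiable. -/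
theorem diff_disc {h : E → ℂ} {c : Γ → ℂ} (a : Add S h c) {q : ℂ → E} {v₀ : ℂ} {r : ℝ}
    (hq : DiscIn S q v₀ r) {v : ℂ} (hv : v ∈ ball v₀ r) :
    DifferentiableAt ℂ (fun v => h (q v)) v := by
  obtain ⟨γ, i, z, hz, he⟩ := S.cover (q v)
  have hz3 : z ∈ ball (0 : ℂ) 3 := by rw [mem_ball_zero_iff]; linarith
  obtain ⟨θ, h1, h2, h3⟩ := hq.hol v hv i z hz3 γ he.symm
  have h4 : (fun v => h (q v)) =ᶠ[𝓝 v] fun u => h (S.σ i (θ u)) + c γ := by
    filter_upwards [h3] with u hu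
    rw [hu, a.add]
  refine DifferentiableAt.congr_of_eventuallyEq ?_ h4
  have h5 : DifferentiableAt ℂ (fun z => h (S.σ i z)) (θ v) := by
    rw [h2]; exact (a.hol i).differentiableAt (isOpen_ball.mem_nhds hz3)
  exact (DifferentiableAt.comp (g := fun z => h (S.σ i z)) (f := θ) v h5
    h1.differentiableAt).add_const _

theorem area_sum (H : E1Concl S) {g : ℕ} {F : E → Fin g → ℂ} {c : Γ → Fin g → ℂ}
    (hF : ∀ j, Add S (fun e => F e j) (fun γ => c γ j)) (A : Matrix (Fin g) (Fin g) ℂ)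
    (hA : A * gram S F * Aᴴ = 1) {q : ℂ → E} {v₀ : ℂ} {r : ℝ} (hq : DiscIn S q v₀ r) :
    ∫⁻ v in ball v₀ r, ‖(WithLp.toLp 2 (A *ᵥ fun j => deriv (fun v => F (q v) j) v) :
      EuclideanSpace ℂ (Fin g))‖ₑ ^ 2 ≤ (g : ENNReal) := by
  have h1 : ∀ v ∈ ball v₀ r,
      ‖(WithLp.toLp 2 (A *ᵥ fun j => deriv (fun v => F (q v) j) v) :
        EuclideanSpace ℂ (Fin g))‖ₑ ^ 2 =
      ∑ a, ‖deriv (fun v => ∑ j, A a j * F (q v) j) v‖ₑ ^ 2 := by
    intro v hv
    have h2 : ∀ a, deriv (fun v => ∑ j, A a j * F (q v) j) v =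
        (A *ᵥ fun j => deriv (fun v => F (q v) j) v) a := fun a => by
      have h3 : ∀ j ∈ Finset.univ, DifferentiableAt ℂ (fun v => A a j * F (q v) j) v :=
        fun j _ => (diff_disc (hF j) hq hv).const_mul _
      rw [deriv_fun_sum h3]
      exact Finset.sum_congr rfl fun j _ => deriv_const_mul _ (diff_disc (hF j) hq hv)
    simp only [h2]
    generalize (A *ᵥ fun j => deriv (fun v => F (q v) j) v) = u
    have h4 : ‖(WithLp.toLp 2 u : EuclideanSpace ℂ (Fin g))‖₊ ^ 2 = ∑ a, ‖u a‖₊ ^ 2 := by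
      rw [← NNReal.coe_inj]
      push_cast
      exact EuclideanSpace.norm_sq_eq _
    simp only [enorm]
    exact_mod_cast h4
  rw [setLIntegral_congr_fun measurableSet_ball h1,
    lintegral_finsetSum' _ fun a _ => ((measurable_deriv _).enorm.pow_const 2).aemeasurable]
  have h5 : ∀ a, ∫⁻ v in ball v₀ r, ‖deriv (fun v => ∑ j, A a j * F (q v) j) v‖ₑ ^ 2 ≤ 1 := by
    intro a
    have h6 := H.area (add_sum hF (A a)) hq
    have h7 : S.herm (fun e => ∑ j, A a j * F e j) (fun e => ∑ j, A a j * F e j) = 1 := by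
      rw [herm_sum_sum H hF]
      have h8 := congrFun (congrFun hA a) a
      rw [Matrix.mul_assoc, Matrix.mul_apply, Matrix.one_apply_eq] at h8
      rw [← h8]
      simp only [dotProduct, mulVec, Matrix.mul_apply, Matrix.conjTranspose_apply, Pi.star_apply]
    rw [h7] at h6
    simpa using h6
  calc _ ≤ ∑ _a : Fin g, (1 : ENNReal) := Finset.sum_le_sum fun a _ => h5 a
    _ = g := by simp

end

/-- **F2** (linear algebra, from C2 and E1). -/
theorem f2 (c2 : C2Stmt) (e1 : E1Stmt) : F2Stmt := by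
  intro E Γ _ _ _ _ _ _ S n g M B F c hn hB hF
  have H := e1 E Γ S
  have D := dat_of c2 H M hB hF
  obtain ⟨π, hπ⟩ := exists_pi M c D hn
  have hw : ∀ x, π x = WithLp.toLp 2 (ww (fun k => c (M.g k)) x) := fun x => by
    rw [hπ, perMap_eq]
  refine ⟨D.unitB, π, hπ, ?_, ?_⟩
  · obtain ⟨G, hG⟩ := exists_G D.posDef.inv
    refine ⟨G, fun x x' => ?_⟩
    rw [hw, hw, hG, D.key]
  · intro G hG q v₀ r hq
    let G' : EuclideanSpace ℂ (Fin g) →ₗ[ℂ] EuclideanSpace ℂ (Fin g) := G.toLinearEquiv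
    have h1 : (mat G')ᴴ * mat G' = (gram S F)⁻¹ := by
      refine eq_of_im' fun w w' => ?_
      obtain ⟨x, hx⟩ := π.surjective (WithLp.toLp 2 w)
      obtain ⟨x', hx'⟩ := π.surjective (WithLp.toLp 2 w')
      have h2 := hG x x'
      rw [D.key, hx, hx'] at h2
      rw [hw] at hx hx'
      rw [(WithLp.toLp_injective 2) hx, (WithLp.toLp_injective 2) hx'] at h2
      rw [← h2, ← inner_mat]
      rfl
    have h2 : mat G' * gram S F * (mat G')ᴴ = 1 := by
      have h3 : gram S F * (mat G')ᴴ * mat G' = 1 := by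
        rw [Matrix.mul_assoc, h1, Matrix.mul_nonsing_inv _ D.unitH]
      rw [Matrix.mul_assoc]
      exact mul_eq_one_comm.1 h3
    have h3 := area_sum H hF.add (mat G') h2 hq
    refine le_trans (le_of_eq ?_) h3
    refine setLIntegral_congr_fun measurableSet_ball fun v _ => ?_
    show ‖G (WithLp.toLp 2 _)‖ₑ ^ 2 = _
    rw [← mat_apply]
    rfl

end Vale.Agent.P281.H383
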