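import Vale.Agent.P281.H64.Base

/-!
# P281, theorem T-D (helper383): block F1 (the group is finitely generated, marking)
-/

open Set Filter Metric MeasureTheory
open scoped Topology ContDiff ComplexConjugate

noncomputable section

namespace Vale.Agent.P281.H383

open Vale.Agent.P281.H64

section
variable {E Γ : Type} [TopologicalSpace E] [Group Γ] [MulAction Γ E] [ContinuousConstSMul Γ E]
  (S : Sheets E Γ)

theorem fin_pair (i j : Fin S.N) :
    {γ : Γ | ∃ z w : ℂ, ‖z‖ ≤ 1 ∧ w ∈ closedBall (0 : ℂ) 1 ∧ γ • S.σ j z = S.σ i w}.Finite := by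
  refine (isCompact_closedBall (0 : ℂ) 1).induction_on
    (p := fun N => {γ : Γ | ∃ z w : ℂ, ‖z‖ ≤ 1 ∧ w ∈ N ∧ γ • S.σ j z = S.σ i w}.Finite)
    ?_ ?_ ?_ ?_
  · convert Set.finite_empty
    ext γ; simp
  · intro s t hst ht
    refine ht.subset ?_
    rintro γ ⟨z, w, hz, hw, h⟩
    exact ⟨z, w, hz, hst hw, h⟩
  · intro s t hs ht
    refine (hs.union ht).subset ?_
    rintro γ ⟨z, w, hz, hw | hw, h⟩
    · exact Or.inl ⟨z, w, hz, hw, h⟩
    · exact Or.inr ⟨z, w, hz, hw, h⟩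
  · intro w hw
    have hw3 : w ∈ ball (0 : ℂ) 3 := by
      rw [mem_closedBall_zero_iff] at hw
      rw [mem_ball_zero_iff]; linarith
    by_cases hC : S.σ i w ∈ {e : E | ∃ (γ : Γ) (z : ℂ), ‖z‖ ≤ 1 ∧ γ • S.σ j z = e}
    · obtain ⟨γ₀, z₀, hz₀, h₀⟩ := hC
      have hz3 : z₀ ∈ ball (0 : ℂ) 3 := by rw [mem_ball_zero_iff]; linarith
      have hO : (fun u => γ₀ • S.σ j u) '' ball (0 : ℂ) 3 ∈ 𝓝 (S.σ i w) :=
        (S.isOpen_image_smul γ₀ j isOpen_ball le_rfl).mem_nhds ⟨z₀, hz3, h₀⟩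
      refine ⟨S.σ i ⁻¹' ((fun u => γ₀ • S.σ j u) '' ball (0 : ℂ) 3),
        mem_nhdsWithin_of_mem_nhds ((S.contAt i hw3).preimage_mem_nhds hO), ?_⟩
      refine (Set.finite_singleton γ₀).subset ?_
      rintro γ ⟨z, u, hz, ⟨y, hy, hy'⟩, h⟩
      have h1 : (γ₀⁻¹ * γ) • S.σ j z = S.σ j y := by
        rw [mul_smul, h, ← hy']
        exact inv_smul_smul _ _
      have h2 := (S.inj j z (by rw [mem_ball_zero_iff]; linarith) y hy _ h1).1
      exact (inv_mul_eq_one.1 h2).symm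
    · have hO := (S.closed j 1 (by norm_num)).isOpen_compl.mem_nhds hC
      refine ⟨S.σ i ⁻¹' {e : E | ∃ (γ : Γ) (z : ℂ), ‖z‖ ≤ 1 ∧ γ • S.σ j z = e}ᶜ,
        mem_nhdsWithin_of_mem_nhds ((S.contAt i hw3).preimage_mem_nhds hO), ?_⟩
      convert Set.finite_empty
      ext γ
      simp only [mem_ofPred_eq, mem_empty_iff_false, iff_false]
      rintro ⟨z, u, hz, hu, h⟩
      exact hu ⟨γ, z, hz, h⟩

include S in
theorem fg_of [ConnectedSpace E] : Group.FG Γ := by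
  classical
  let Sg : Set Γ := ⋃ i : Fin S.N, ⋃ j : Fin S.N,
    {γ : Γ | ∃ z w : ℂ, ‖z‖ ≤ 1 ∧ w ∈ closedBall (0 : ℂ) 1 ∧ γ • S.σ j z = S.σ i w}
  have hfin : Sg.Finite := Set.finite_iUnion fun i => Set.finite_iUnion fun j => fin_pair S i j
  rw [Group.fg_iff]
  refine ⟨Sg, ?_, hfin⟩
  set H := Subgroup.closure Sg with hH
  have key : ∀ γ γ' : Γ, ∀ i j : Fin S.N, ∀ z w : ℂ, ‖z‖ < 1 → ‖w‖ < 1 →
      γ • S.σ i z = γ' • S.σ j w → γ ∈ H → γ' ∈ H := by
    intro γ γ' i j z w hz hw h hγ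
    have h1 : (γ⁻¹ * γ') • S.σ j w = S.σ i z := by rw [mul_smul, ← h, inv_smul_smul]
    have h2 : γ⁻¹ * γ' ∈ H := Subgroup.subset_closure (mem_iUnion.2 ⟨i, mem_iUnion.2 ⟨j,
      w, z, hw.le, by rw [mem_closedBall_zero_iff]; exact hz.le, h1⟩⟩)
    have h3 := H.mul_mem hγ h2
    rwa [mul_inv_cancel_left] at h3
  let A : Set E := {e | ∃ γ ∈ H, ∃ (i : Fin S.N) (z : ℂ), ‖z‖ < 1 ∧ γ • S.σ i z = e}
  have hop : ∀ P : Γ → Prop, IsOpen {e : E | ∃ γ, P γ ∧ ∃ (i : Fin S.N) (z : ℂ), ‖z‖ < 1 ∧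
      γ • S.σ i z = e} := by
    intro P
    have h1 : {e : E | ∃ γ, P γ ∧ ∃ (i : Fin S.N) (z : ℂ), ‖z‖ < 1 ∧ γ • S.σ i z = e} =
        ⋃ γ : Γ, ⋃ _ : P γ, ⋃ i : Fin S.N, (fun u => γ • S.σ i u) '' ball (0 : ℂ) 1 := by
      ext e
      simp only [mem_ofPred_eq, mem_iUnion, mem_image, mem_ball_zero_iff, exists_prop]
    rw [h1]
    exact isOpen_iUnion fun γ => isOpen_iUnion fun _ => isOpen_iUnion fun i =>
      S.isOpen_image_smul γ i isOpen_ball (ball_subset_ball (by norm_num))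
  have hA : IsOpen A := hop (fun γ => γ ∈ H)
  have hA' : Aᶜ = {e : E | ∃ γ, γ ∉ H ∧ ∃ (i : Fin S.N) (z : ℂ), ‖z‖ < 1 ∧ γ • S.σ i z = e} := by
    ext e
    constructor
    · intro he
      obtain ⟨γ, i, z, hz, h⟩ := S.cover e
      exact ⟨γ, fun hγ => he ⟨γ, hγ, i, z, hz, h⟩, i, z, hz, h⟩
    · rintro ⟨γ, hγ, i, z, hz, rfl⟩ ⟨γ', hγ', j, w, hw, h⟩
      exact hγ (key γ' γ j i w z hw hz h hγ')
  have hcl : IsClopen A := ⟨⟨by rw [hA']; exact hop _⟩, hA⟩
  obtain ⟨e₀⟩ : Nonempty E := inferInstance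
  obtain ⟨γ₀, i₀, z₀, hz₀, -⟩ := S.cover e₀
  have hne : A.Nonempty := ⟨S.σ i₀ z₀, 1, H.one_mem, i₀, z₀, hz₀, one_smul _ _⟩
  have hu : A = univ := hcl.eq_univ hne
  rw [eq_top_iff]
  intro γ _
  have h1 : γ • S.σ i₀ z₀ ∈ A := by rw [hu]; exact mem_univ _
  obtain ⟨γ', hγ', j, w, hw, h⟩ := h1
  exact key γ' γ j i₀ w z₀ hw hz₀ h hγ'

end

/-! ### The marking -/

section
variable {Γ : Type} [Group Γ]

/-- `Γ → Γ^ab / torsion` -/
abbrev Q (Γ : Type) [Group Γ] : Type :=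
  Additive (Abelianization Γ) ⧸ Submodule.torsion ℤ (Additive (Abelianization Γ))

/-- the class in `Γ^ab / torsion` -/
def cls (γ : Γ) : Q Γ := Submodule.Quotient.mk (Additive.ofMul (Abelianization.of γ))

theorem cls_mul (a b : Γ) : cls (a * b) = cls a + cls b := by
  unfold cls
  rw [map_mul]
  rfl

theorem cls_surj : Function.Surjective (cls : Γ → Q Γ) := by
  intro q
  obtain ⟨a, rfl⟩ := Submodule.Quotient.mk_surjective _ q
  obtain ⟨γ, hγ⟩ := QuotientGroup.mk_surjective (Additive.toMul a)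
  refine ⟨γ, ?_⟩
  show Submodule.Quotient.mk (Additive.ofMul (Abelianization.of γ)) = _
  congr 1

/-- additive functions to `ℝ` factor through `Γ^ab / torsion` -/
theorem exists_factor (a : Γ → ℝ) (ha : ∀ x y, a (x * y) = a x + a y) :
    ∃ f : Q Γ →ₗ[ℤ] ℝ, ∀ γ, f (cls γ) = a γ := by
  have ha1 : a 1 = 0 := by
    have := ha 1 1
    rw [mul_one] at this
    linarith
  let a0 : Γ →* Multiplicative ℝ :=
    { toFun := fun γ => Multiplicative.ofAdd (a γ)
      map_one' := by rw [ha1]; rfl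
      map_mul' := fun x y => by rw [ha]; rfl }
  let a1 : Additive (Abelianization Γ) →+ ℝ :=
    MonoidHom.toAdditiveLeft (Abelianization.lift a0)
  let a2 : Additive (Abelianization Γ) →ₗ[ℤ] ℝ := a1.toIntLinearMap
  have hk : Submodule.torsion ℤ (Additive (Abelianization Γ)) ≤ LinearMap.ker a2 := by
    rintro x ⟨⟨n, hn⟩, hx⟩
    have h1 : n • x = 0 := hx
    have h2 : a2 (n • x) = 0 := by rw [h1, map_zero]
    rw [map_smul] at h2
    have h3 := (smul_eq_zero.1 h2)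
    rcases h3 with h3 | h3
    · exact absurd h3 (nonZeroDivisors.ne_zero hn)
    · exact h3
  refine ⟨Submodule.liftQ _ a2 hk, fun γ => ?_⟩
  rfl

theorem exists_mark [Group.FG Γ] : ∃ n, Nonempty (Mark Γ n) := by
  have : Group.FG (Abelianization Γ) :=
    Group.fg_of_surjective (f := (Abelianization.of : Γ →* Abelianization Γ))
      QuotientGroup.mk_surjective
  have : AddGroup.FG (Additive (Abelianization Γ)) := AddGroup.fg_iff_mul_fg.2 ‹_›
  have : Module.Finite ℤ (Additive (Abelianization Γ)) := Module.Finite.iff_addGroup_fg.2 ‹_›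
  have : Module.Finite ℤ (Q Γ) := inferInstance
  have : Module.Free ℤ (Q Γ) := inferInstance
  let b := Module.finBasis ℤ (Q Γ)
  choose g hg using fun k => cls_surj (b k)
  refine ⟨_, ⟨⟨g, fun k γ => b.repr (cls γ) k, ?_, ?_, ?_⟩⟩⟩
  · intro k x y
    rw [cls_mul, map_add]; rfl
  · intro k l
    rw [hg, b.repr_self, Finsupp.single_apply]
    simp only [eq_comm]
  · intro a ha γ
    obtain ⟨f, hf⟩ := exists_factor a ha
    rw [← hf γ]
    conv_lhs => rw [← b.sum_repr (cls γ)]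
    rw [map_sum]
    refine Finset.sum_congr rfl fun k _ => ?_
    rw [map_smul, ← hf (g k), hg k, zsmul_eq_mul, mul_comm]

theorem mark_le {n n' : ℕ} (M : Mark Γ n) (M' : Mark Γ n') : n ≤ n' := by
  let T : (Fin n → ℝ) →ₗ[ℝ] (Fin n' → ℝ) :=
    { toFun := fun x l => ∑ k, x k * M.φ k (M'.g l)
      map_add' := fun x y => by
        ext l
        simp only [Pi.add_apply, add_mul, Finset.sum_add_distrib]
      map_smul' := fun r x => by
        ext l
        simp only [Pi.smul_apply, smul_eq_mul, RingHom.id_apply, Finset.mul_sum, mul_assoc] }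
  have hT : Function.Injective T := by
    rw [← LinearMap.ker_eq_bot, LinearMap.ker_eq_bot']
    intro x hx
    have h1 := M'.complete (fun γ => ∑ k, x k * M.φ k γ) (fun a b => by
      simp only [M.hom, Int.cast_add, mul_add, Finset.sum_add_distrib])
    ext k
    have h2 := h1 (M.g k)
    have h3 : ∀ l, ∑ k, x k * (M.φ k (M'.g l) : ℝ) = 0 := fun l => congrFun hx l
    simp only [h3, zero_mul, Finset.sum_const_zero, M.dual] at h2
    simpa using h2
  have h := LinearMap.finrank_le_finrank_of_injective hT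
  simpa using h

end

/-- **F1** -/
theorem f1 : F1Stmt := by
  refine ⟨fun E Γ _ _ _ _ _ _ S => ?_, fun Γ _ n n' M M' => le_antisymm (mark_le M M') (mark_le M' M)⟩
  have : Group.FG Γ := fg_of S
  exact exists_mark

end Vale.Agent.P281.H383
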